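import Vale.Agent.P181.TB.Defs
import Vale.Agent.P181.TL.H248.T4
import Vale.Agent.P181.SZR1a.Main

set_option autoImplicit false

/-!
# P181, TB1: the lift, part A: the polynomial is a highest weight polynomial
-/

open MvPolynomial

namespace Vale.Agent.P181.TB.H505

open Vale.Agent.P181.T4 (HW finiteDimensional_HW rowOp rowOp_apply rowOp_leibniz rowOp_C rowOp_var)
open Vale.Agent.P181.H280 (plethMult)
open Vale.Agent.P181.SZ (PK)
open Vale.Agent.P181.SZR2 (wh_aeval weight_fintype wh_X)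
open Vale.Agent.P181.SZR2a (rowOp_aeval rowOp_aeval_zero)
open Vale.Agent.P181.DGx.H248
open Vale.Agent.P181.DU.H248 (sb_equiv tr tr_apply coeff_sb_equiv split_equiv pr_inj)
open Vale.Agent.P181.TL (KK)
open Vale.Agent.P181.TL.H248 (St mem_St sym_mem_PK)

section gen

variable {k : ℕ} {σ : Type}

/-- the bracket -/
noncomputable def br (k : ℕ) (x y : σ) : MvPolynomial (Fin (k + 2) × σ) ℂ :=
  X (0, x) * X (1, y) - X (1, x) * X (0, y)

/-- the `3 × 3` minor -/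
noncomputable def mn3 (i : Fin k) (x y z : σ) : MvPolynomial (Fin (k + 2) × σ) ℂ :=
  X (i.succ.succ, x) * br k y z + X (i.succ.succ, y) * br k z x + X (i.succ.succ, z) * br k x y

/-- the weight -/
def ww (ρ : Fin (k + 2) → ℕ) (ω : σ → ℕ) (q : Fin (k + 2) × σ) : ℕ := ρ q.1 + ω q.2

lemma wh_br (ρ : Fin (k + 2) → ℕ) (ω : σ → ℕ) (x y : σ) :
    IsWeightedHomogeneous (ww ρ ω) (br k x y) (ρ 0 + ρ 1 + (ω x + ω y)) := by
  have e1 := (isWeightedHomogeneous_X ℂ (ww ρ ω) ((0 : Fin (k + 2)), x)).mul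
    (isWeightedHomogeneous_X ℂ (ww ρ ω) ((1 : Fin (k + 2)), y))
  have e2 := (isWeightedHomogeneous_X ℂ (ww ρ ω) ((1 : Fin (k + 2)), x)).mul
    (isWeightedHomogeneous_X ℂ (ww ρ ω) ((0 : Fin (k + 2)), y))
  have h1 : ww ρ ω ((0 : Fin (k + 2)), x) + ww ρ ω ((1 : Fin (k + 2)), y) =
      ρ 0 + ρ 1 + (ω x + ω y) := by
    simp only [ww]; ring
  have h2 : ww ρ ω ((1 : Fin (k + 2)), x) + ww ρ ω ((0 : Fin (k + 2)), y) =
      ρ 0 + ρ 1 + (ω x + ω y) := by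
    simp only [ww]; ring
  rw [h1] at e1
  rw [h2] at e2
  exact e1.sub e2

lemma wh_mn3 (ρ : Fin (k + 2) → ℕ) (ω : σ → ℕ) (i : Fin k) (x y z : σ) :
    IsWeightedHomogeneous (ww ρ ω) (mn3 i x y z)
      (ρ 0 + ρ 1 + ρ i.succ.succ + (ω x + ω y + ω z)) := by
  have key : ∀ x y z : σ, IsWeightedHomogeneous (ww ρ ω) (X (i.succ.succ, x) * br k y z)
      (ρ 0 + ρ 1 + ρ i.succ.succ + (ω x + ω y + ω z)) := by
    intro x y z
    have e := (isWeightedHomogeneous_X ℂ (ww ρ ω) (i.succ.succ, x)).mul (wh_br ρ ω y z)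
    have h : ww ρ ω (i.succ.succ, x) + (ρ 0 + ρ 1 + (ω y + ω z)) =
        ρ 0 + ρ 1 + ρ i.succ.succ + (ω x + ω y + ω z) := by
      simp only [ww]; ring
    rwa [h] at e
  have e1 := key x y z
  have e2 := key y z x
  have e3 := key z x y
  have h2 : ρ 0 + ρ 1 + ρ i.succ.succ + (ω y + ω z + ω x) =
      ρ 0 + ρ 1 + ρ i.succ.succ + (ω x + ω y + ω z) := by ring
  have h3 : ρ 0 + ρ 1 + ρ i.succ.succ + (ω z + ω x + ω y) =
      ρ 0 + ρ 1 + ρ i.succ.succ + (ω x + ω y + ω z) := by ring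
  rw [h2] at e2
  rw [h3] at e3
  exact (e1.add e2).add e3

lemma rowOp_X [Fintype σ] {n : ℕ} (s i j : Fin n) (x : σ) (h : j ≠ i) :
    rowOp s i (X (j, x) : MvPolynomial (Fin n × σ) ℂ) = 0 := by
  rw [rowOp_var, if_neg h]

variable [Fintype σ]

lemma rowOp_zero' {n : ℕ} (s i : Fin n) {ι : Type} (t : Finset ι)
    (f : ι → MvPolynomial (Fin n × σ) ℂ) (h : ∀ x ∈ t, rowOp s i (f x) = 0) :
    rowOp s i (∏ x ∈ t, f x) = 0 := by
  classical
  induction t using Finset.induction_on with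
  | empty =>
    rw [Finset.prod_empty, ← C_1]
    exact rowOp_C _ _ _
  | insert c t hc ih =>
    rw [Finset.prod_insert hc, rowOp_leibniz, ih (fun x hx => h x (Finset.mem_insert_of_mem hx)),
      h c (Finset.mem_insert_self _ _), zero_mul, mul_zero, add_zero]

lemma rowOp_pow0 {n : ℕ} (s i : Fin n) (f : MvPolynomial (Fin n × σ) ℂ) (h : rowOp s i f = 0)
    (e : ℕ) : rowOp s i (f ^ e) = 0 := by
  induction e with
  | zero =>
    rw [pow_zero, ← C_1]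
    exact rowOp_C _ _ _
  | succ n ih => rw [pow_succ, rowOp_leibniz, ih, h, zero_mul, mul_zero, add_zero]

lemma rowOp_br_low (s : Fin (k + 2)) (i : Fin k) (x y : σ) :
    rowOp s i.succ.succ (br k x y) = 0 := by
  have h0 : (0 : Fin (k + 2)) ≠ i.succ.succ := (Fin.succ_ne_zero _).symm
  have h1 : (1 : Fin (k + 2)) ≠ i.succ.succ := by
    intro h
    have := congrArg Fin.val h
    simp at this
  rw [br, map_sub, rowOp_leibniz, rowOp_leibniz, rowOp_X _ _ _ _ h0, rowOp_X _ _ _ _ h1,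
    rowOp_X _ _ _ _ h0, rowOp_X _ _ _ _ h1]
  ring

lemma rowOp_br_one (x y : σ) : rowOp (0 : Fin (k + 2)) 1 (br k x y) = 0 := by
  have h0 : (0 : Fin (k + 2)) ≠ 1 := by
    intro h
    have := congrArg Fin.val h
    simp at this
  rw [br, map_sub, rowOp_leibniz, rowOp_leibniz, rowOp_X _ _ _ _ h0, rowOp_X _ _ _ _ h0,
    rowOp_var, rowOp_var, if_pos rfl, if_pos rfl]
  ring

lemma rowOp_mn3_one (i : Fin k) (x y z : σ) : rowOp (0 : Fin (k + 2)) 1 (mn3 i x y z) = 0 := by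
  have h1 : i.succ.succ ≠ (1 : Fin (k + 2)) := by
    intro h
    have := congrArg Fin.val h
    simp at this
  rw [mn3, map_add, map_add, rowOp_leibniz, rowOp_leibniz, rowOp_leibniz, rowOp_br_one,
    rowOp_br_one, rowOp_br_one, rowOp_X _ _ _ _ h1, rowOp_X _ _ _ _ h1, rowOp_X _ _ _ _ h1]
  ring

lemma rowOp_mn3 (s : Fin (k + 2)) (i i' : Fin k) (x y z : σ) :
    rowOp s i'.succ.succ (mn3 i x y z) = if i = i' then
      X (s, x) * br k y z + X (s, y) * br k z x + X (s, z) * br k x y else 0 := by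
  rw [mn3, map_add, map_add, rowOp_leibniz, rowOp_leibniz, rowOp_leibniz, rowOp_br_low,
    rowOp_br_low, rowOp_br_low]
  by_cases h : i = i'
  · subst h
    rw [rowOp_var, rowOp_var, rowOp_var, if_pos rfl, if_pos rfl, if_pos rfl, if_pos rfl]
    ring
  · have h' : i.succ.succ ≠ i'.succ.succ := fun e => h (Fin.succ_injective _ (Fin.succ_injective _ e))
    rw [rowOp_X _ _ _ _ h', rowOp_X _ _ _ _ h', rowOp_X _ _ _ _ h', if_neg h]
    ring

end gen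

section lift

variable {k : ℕ} {ι O₁ O₂ : Type}

/-- The substituted variables. -/
noncomputable def yy (u : ι → O₁) (v : ι → O₂) (q : Fin k × ι) :
    MvPolynomial (Fin (k + 2) × (ι ⊕ (O₁ ⊕ O₂))) ℂ :=
  mn3 q.1 (Sum.inl q.2) (Sum.inr (Sum.inl (u q.2))) (Sum.inr (Sum.inr (v q.2)))

variable [Fintype ι] [Fintype O₁] [Fintype O₂]

/-- The monomial in the brackets. -/
noncomputable def mo (k : ℕ) (A : ι → O₁ → ℕ) (B : ι → O₂ → ℕ) (M : O₁ → O₂ → ℕ) (g : O₁ → ℕ) :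
    MvPolynomial (Fin (k + 2) × (ι ⊕ (O₁ ⊕ O₂))) ℂ :=
  (∏ j, ∏ x, br k (Sum.inl j) (Sum.inr (Sum.inl x)) ^ A j x) *
  (∏ j, ∏ y, br k (Sum.inl j) (Sum.inr (Sum.inr y)) ^ B j y) *
  (∏ x, ∏ y, br k (Sum.inr (Sum.inl x)) (Sum.inr (Sum.inr y)) ^ M x y) *
  ∏ x, X (0, Sum.inr (Sum.inl x)) ^ g x

/-- The lifted polynomial before symmetrization. -/
noncomputable def PH (k : ℕ) (u : ι → O₁) (v : ι → O₂) (A : ι → O₁ → ℕ) (B : ι → O₂ → ℕ)
    (M : O₁ → O₂ → ℕ) (g : O₁ → ℕ) :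
    MvPolynomial (Fin k × ι) ℂ →ₗ[ℂ] MvPolynomial (Fin (k + 2) × (ι ⊕ (O₁ ⊕ O₂))) ℂ :=
  (LinearMap.mulLeft ℂ (mo k A B M g)) ∘ₗ (aeval (yy u v)).toLinearMap

lemma PH_apply (u : ι → O₁) (v : ι → O₂) (A : ι → O₁ → ℕ) (B : ι → O₂ → ℕ)
    (M : O₁ → O₂ → ℕ) (g : O₁ → ℕ) (F : MvPolynomial (Fin k × ι) ℂ) :
    PH k u v A B M g F = mo k A B M g * aeval (yy u v) F := rfl

lemma rowOp_mo_low (s : Fin (k + 2)) (i : Fin k) (A : ι → O₁ → ℕ) (B : ι → O₂ → ℕ)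
    (M : O₁ → O₂ → ℕ) (g : O₁ → ℕ) : rowOp s i.succ.succ (mo k A B M g) = 0 := by
  have h1 : rowOp s i.succ.succ
      (∏ j : ι, ∏ x : O₁, br k (Sum.inl j) (Sum.inr (Sum.inl x) : ι ⊕ (O₁ ⊕ O₂)) ^ A j x) = 0 :=
    rowOp_zero' _ _ _ _ fun j _ => rowOp_zero' _ _ _ _ fun x _ =>
      rowOp_pow0 _ _ _ (rowOp_br_low _ _ _ _) _
  have h2 : rowOp s i.succ.succ
      (∏ j : ι, ∏ y : O₂, br k (Sum.inl j) (Sum.inr (Sum.inr y) : ι ⊕ (O₁ ⊕ O₂)) ^ B j y) = 0 :=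
    rowOp_zero' _ _ _ _ fun j _ => rowOp_zero' _ _ _ _ fun x _ =>
      rowOp_pow0 _ _ _ (rowOp_br_low _ _ _ _) _
  have h3 : rowOp s i.succ.succ
      (∏ x : O₁, ∏ y : O₂, br k (Sum.inr (Sum.inl x)) (Sum.inr (Sum.inr y) : ι ⊕ (O₁ ⊕ O₂)) ^
        M x y) = 0 :=
    rowOp_zero' _ _ _ _ fun j _ => rowOp_zero' _ _ _ _ fun x _ =>
      rowOp_pow0 _ _ _ (rowOp_br_low _ _ _ _) _
  have h4 : rowOp s i.succ.succ
      (∏ x : O₁, (X (0, (Sum.inr (Sum.inl x) : ι ⊕ (O₁ ⊕ O₂))) :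
        MvPolynomial (Fin (k + 2) × (ι ⊕ (O₁ ⊕ O₂))) ℂ) ^ g x) = 0 :=
    rowOp_zero' _ _ _ _ fun x _ => rowOp_pow0 _ _ _
      (rowOp_X _ _ _ _ (Fin.succ_ne_zero _).symm) _
  rw [mo, rowOp_leibniz, rowOp_leibniz, rowOp_leibniz, h1, h2, h3, h4]
  ring

lemma rowOp_mo_one (A : ι → O₁ → ℕ) (B : ι → O₂ → ℕ)
    (M : O₁ → O₂ → ℕ) (g : O₁ → ℕ) : rowOp 0 1 (mo k A B M g) = 0 := by
  have h1 : rowOp 0 1
      (∏ j : ι, ∏ x : O₁, br k (Sum.inl j) (Sum.inr (Sum.inl x) : ι ⊕ (O₁ ⊕ O₂)) ^ A j x) = 0 :=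
    rowOp_zero' _ _ _ _ fun j _ => rowOp_zero' _ _ _ _ fun x _ =>
      rowOp_pow0 _ _ _ (rowOp_br_one _ _) _
  have h2 : rowOp 0 1
      (∏ j : ι, ∏ y : O₂, br k (Sum.inl j) (Sum.inr (Sum.inr y) : ι ⊕ (O₁ ⊕ O₂)) ^ B j y) = 0 :=
    rowOp_zero' _ _ _ _ fun j _ => rowOp_zero' _ _ _ _ fun x _ =>
      rowOp_pow0 _ _ _ (rowOp_br_one _ _) _
  have h3 : rowOp 0 1
      (∏ x : O₁, ∏ y : O₂, br k (Sum.inr (Sum.inl x)) (Sum.inr (Sum.inr y) : ι ⊕ (O₁ ⊕ O₂)) ^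
        M x y) = 0 :=
    rowOp_zero' _ _ _ _ fun j _ => rowOp_zero' _ _ _ _ fun x _ =>
      rowOp_pow0 _ _ _ (rowOp_br_one _ _) _
  have h0 : (0 : Fin (k + 2)) ≠ 1 := by
    intro h
    have := congrArg Fin.val h
    simp at this
  have h4 : rowOp 0 1
      (∏ x : O₁, (X (0, (Sum.inr (Sum.inl x) : ι ⊕ (O₁ ⊕ O₂))) :
        MvPolynomial (Fin (k + 2) × (ι ⊕ (O₁ ⊕ O₂))) ℂ) ^ g x) = 0 :=
    rowOp_zero' _ _ _ _ fun x _ => rowOp_pow0 _ _ _ (rowOp_X _ _ _ _ h0) _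
  rw [mo, rowOp_leibniz, rowOp_leibniz, rowOp_leibniz, h1, h2, h3, h4]
  ring

/-- the row operations kill the lift -/
lemma PH_rowOp {u : ι → O₁} {v : ι → O₂} {A : ι → O₁ → ℕ} {B : ι → O₂ → ℕ}
    {M : O₁ → O₂ → ℕ} {g : O₁ → ℕ} {tau : Fin k → ℕ} {F : MvPolynomial (Fin k × ι) ℂ}
    (hF : F ∈ HW k ι tau) (s i : Fin (k + 2)) (hsi : s < i) :
    rowOp s i (PH k u v A B M g F) = 0 := by
  obtain ⟨i, rfl⟩ := Fin.exists_succ_eq.2 (Fin.pos_iff_ne_zero.1 ((Fin.zero_le s).trans_lt hsi))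
  rw [PH_apply, rowOp_leibniz]
  revert hsi
  refine Fin.cases ?_ (fun i => ?_) i
  · intro hsi
    have hs : s = 0 := by
      ext
      have := Fin.lt_def.1 hsi
      simp at this
      simp [this]
    subst hs
    have h1 : rowOp 0 (Fin.succ (0 : Fin (k + 1))) (mo k A B M g) = 0 := rowOp_mo_one A B M g
    have h2 : rowOp 0 (Fin.succ (0 : Fin (k + 1))) (aeval (yy u v) F) = 0 :=
      rowOp_aeval_zero _ (fun q => rowOp_mn3_one _ _ _ _) F
    rw [h1, h2]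
    ring
  · intro hsi
    rw [rowOp_mo_low, zero_mul, zero_add]
    revert hsi
    refine Fin.cases ?_ (fun s' => ?_) s
    · intro _
      have h7 : rowOp 0 i.succ.succ (aeval (yy u v) F) = 0 := by
        refine rowOp_aeval_zero _ (fun q => ?_) F
        rw [yy, rowOp_mn3]
        split_ifs
        · simp only [br]
          ring
        · rfl
      rw [h7, mul_zero]
    · refine Fin.cases ?_ (fun s' => ?_) s'
      · intro _
        have h7 : rowOp (Fin.succ 0) i.succ.succ (aeval (yy u v) F) = 0 := by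
          refine rowOp_aeval_zero _ (fun q => ?_) F
          rw [yy, rowOp_mn3]
          split_ifs
          · simp only [br]
            have e : (Fin.succ 0 : Fin (k + 2)) = 1 := rfl
            rw [e]
            ring
          · rfl
        rw [h7, mul_zero]
      · intro hsi
        have h7 : rowOp s'.succ.succ i.succ.succ (aeval (yy u v) F) =
            aeval (yy u v) (rowOp s' i F) := by
          refine rowOp_aeval _ (fun q => ?_) F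
          rw [yy, rowOp_mn3, rowOp_var]
          by_cases hp : q.1 = i
          · rw [if_pos hp, if_pos hp, aeval_X, yy, mn3]
          · rw [if_neg hp, if_neg hp, map_zero]
        rw [h7, hF.2 s' i (Fin.succ_lt_succ_iff.1 (Fin.succ_lt_succ_iff.1 hsi)), map_zero, mul_zero]

end lift

end Vale.Agent.P181.TB.H505
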