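import Vale.Agent.P181.TB.H505.A

set_option autoImplicit false

/-!
# P181, TB1: the lift, part B: degrees
-/

open MvPolynomial

namespace Vale.Agent.P181.TB.H505

open Vale.Agent.P181.T4 (HW finiteDimensional_HW rowOp rowOp_apply rowOp_leibniz rowOp_C rowOp_var)
open Vale.Agent.P181.H280 (plethMult)
open Vale.Agent.P181.SZ (PK)
open Vale.Agent.P181.SZR2 (wh_aeval weight_fintype wh_X)
open Vale.Agent.P181.TL (KK)

section lift

variable {k : ℕ} {ι O₁ O₂ : Type} [Fintype ι] [Fintype O₁] [Fintype O₂]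

/-- the weight of the monomial in the brackets -/
lemma wh_mo (ρ : Fin (k + 2) → ℕ) (ω : ι ⊕ (O₁ ⊕ O₂) → ℕ) (A : ι → O₁ → ℕ) (B : ι → O₂ → ℕ)
    (M : O₁ → O₂ → ℕ) (g : O₁ → ℕ) :
    IsWeightedHomogeneous (ww ρ ω) (mo k A B M g)
      (∑ j, ∑ x, A j x * (ρ 0 + ρ 1 + (ω (Sum.inl j) + ω (Sum.inr (Sum.inl x)))) +
        ∑ j, ∑ y, B j y * (ρ 0 + ρ 1 + (ω (Sum.inl j) + ω (Sum.inr (Sum.inr y)))) +
        ∑ x, ∑ y, M x y * (ρ 0 + ρ 1 + (ω (Sum.inr (Sum.inl x)) + ω (Sum.inr (Sum.inr y)))) +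
        ∑ x, g x * (ρ 0 + ω (Sum.inr (Sum.inl x)))) := by
  have hp : ∀ (x y : ι ⊕ (O₁ ⊕ O₂)) (e : ℕ), IsWeightedHomogeneous (ww ρ ω) (br k x y ^ e)
      (e * (ρ 0 + ρ 1 + (ω x + ω y))) := by
    intro x y e
    have h := (wh_br ρ ω x y).pow e
    rwa [smul_eq_mul] at h
  refine IsWeightedHomogeneous.mul (IsWeightedHomogeneous.mul (IsWeightedHomogeneous.mul ?_ ?_) ?_) ?_
  · exact IsWeightedHomogeneous.prod _ _ _ fun j _ => IsWeightedHomogeneous.prod _ _ _ fun x _ =>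
      hp _ _ _
  · exact IsWeightedHomogeneous.prod _ _ _ fun j _ => IsWeightedHomogeneous.prod _ _ _ fun x _ =>
      hp _ _ _
  · exact IsWeightedHomogeneous.prod _ _ _ fun j _ => IsWeightedHomogeneous.prod _ _ _ fun x _ =>
      hp _ _ _
  · refine IsWeightedHomogeneous.prod _ _ _ fun x _ => ?_
    have h := (isWeightedHomogeneous_X ℂ (ww ρ ω) ((0 : Fin (k + 2)),
      (Sum.inr (Sum.inl x) : ι ⊕ (O₁ ⊕ O₂)))).pow (g x)
    rwa [smul_eq_mul] at h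

omit [Fintype O₁] [Fintype O₂] in
/-- the weight of the tail polynomial -/
lemma wh_F (ρ : Fin (k + 2) → ℕ) (ω : ι ⊕ (O₁ ⊕ O₂) → ℕ) (u : ι → O₁) (v : ι → O₂) {c : ι → ℕ}
    {tau : Fin k → ℕ} {F : MvPolynomial (Fin k × ι) ℂ} (hF : F ∈ KK k ι c tau) :
    IsWeightedHomogeneous (ww ρ ω) (aeval (yy u v) F)
      (∑ i, tau i * (ρ 0 + ρ 1 + ρ i.succ.succ) +
        ∑ j, c j * (ω (Sum.inl j) + ω (Sum.inr (Sum.inl (u j))) + ω (Sum.inr (Sum.inr (v j))))) := by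
  refine wh_aeval _ (fun q : Fin k × ι => ρ 0 + ρ 1 + ρ q.1.succ.succ +
    (ω (Sum.inl q.2) + ω (Sum.inr (Sum.inl (u q.2))) + ω (Sum.inr (Sum.inr (v q.2))))) _
    (fun q => wh_mn3 ρ ω _ _ _ _) ?_
  intro w hw
  rw [weight_fintype]
  have h1 : ∑ p : Fin k × ι, w p * (ρ 0 + ρ 1 + ρ p.1.succ.succ +
      (ω (Sum.inl p.2) + ω (Sum.inr (Sum.inl (u p.2))) + ω (Sum.inr (Sum.inr (v p.2))))) =
      ∑ p : Fin k × ι, w p * (ρ 0 + ρ 1 + ρ p.1.succ.succ) + ∑ p : Fin k × ι, w p *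
        (ω (Sum.inl p.2) + ω (Sum.inr (Sum.inl (u p.2))) + ω (Sum.inr (Sum.inr (v p.2)))) := by
    rw [← Finset.sum_add_distrib]
    exact Finset.sum_congr rfl fun p _ => by ring
  rw [h1]
  congr 1
  · rw [Fintype.sum_prod_type]
    refine Finset.sum_congr rfl fun i _ => ?_
    have e := hF.1.1 w hw i
    rw [← e, Finset.sum_mul]
  · rw [Fintype.sum_prod_type_right]
    refine Finset.sum_congr rfl fun j _ => ?_
    have e := hF.2 w hw j
    rw [← e, Finset.sum_mul]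

/-- the weight of the lift -/
lemma wh_PH (ρ : Fin (k + 2) → ℕ) (ω : ι ⊕ (O₁ ⊕ O₂) → ℕ) {a d : ℕ} {al c : ι → ℕ} {u : ι → O₁}
    {v : ι → O₂} {f₁ : ι → O₁} {f₂ : ι → O₂} {A : ι → O₁ → ℕ} {B : ι → O₂ → ℕ}
    {M : O₁ → O₂ → ℕ} {g : O₁ → ℕ} (D : Dsn a d al c u v f₁ f₂ A B M g)
    {tau : Fin k → ℕ} {F : MvPolynomial (Fin k × ι) ℂ} (hF : F ∈ KK k ι c tau) :
    IsWeightedHomogeneous (ww ρ ω) (PH k u v A B M g F)
      ((∑ j, ∑ x, A j x + ∑ j, ∑ y, B j y + ∑ x, ∑ y, M x y + ∑ i, tau i) * (ρ 0 + ρ 1) +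
        d * ρ 0 + ∑ i, tau i * ρ i.succ.succ + ∑ x, a * ω x) := by
  classical
  have h := (wh_mo ρ ω A B M g).mul (wh_F ρ ω u v hF)
  rw [← PH_apply] at h
  convert h using 1
  have hA : ∑ j, ∑ x, A j x * (ρ 0 + ρ 1 + (ω (Sum.inl j) + ω (Sum.inr (Sum.inl x)))) =
      (∑ j, ∑ x, A j x) * (ρ 0 + ρ 1) + ∑ j, (∑ x, A j x) * ω (Sum.inl j) +
        ∑ x, (∑ j, A j x) * ω (Sum.inr (Sum.inl x)) := by
    simp only [Finset.sum_mul, mul_add, Finset.sum_add_distrib]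
    rw [Finset.sum_comm (f := fun x j => A j x * ω (Sum.inr (Sum.inl x)))]
    ring
  have hB : ∑ j, ∑ x, B j x * (ρ 0 + ρ 1 + (ω (Sum.inl j) + ω (Sum.inr (Sum.inr x)))) =
      (∑ j, ∑ x, B j x) * (ρ 0 + ρ 1) + ∑ j, (∑ x, B j x) * ω (Sum.inl j) +
        ∑ x, (∑ j, B j x) * ω (Sum.inr (Sum.inr x)) := by
    simp only [Finset.sum_mul, mul_add, Finset.sum_add_distrib]
    rw [Finset.sum_comm (f := fun x j => B j x * ω (Sum.inr (Sum.inr x)))]
    ring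
  have hM : ∑ x, ∑ y, M x y * (ρ 0 + ρ 1 + (ω (Sum.inr (Sum.inl x)) + ω (Sum.inr (Sum.inr y)))) =
      (∑ x, ∑ y, M x y) * (ρ 0 + ρ 1) + ∑ x, (∑ y, M x y) * ω (Sum.inr (Sum.inl x)) +
        ∑ y, (∑ x, M x y) * ω (Sum.inr (Sum.inr y)) := by
    simp only [Finset.sum_mul, mul_add, Finset.sum_add_distrib]
    rw [Finset.sum_comm (f := fun y x => M x y * ω (Sum.inr (Sum.inr y)))]
    ring
  have hg : ∑ x, g x * (ρ 0 + ω (Sum.inr (Sum.inl x))) =
      d * ρ 0 + ∑ x, g x * ω (Sum.inr (Sum.inl x)) := by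
    rw [← D.sumg, Finset.sum_mul, ← Finset.sum_add_distrib]
    exact Finset.sum_congr rfl fun x _ => by ring
  have ht : ∑ i, tau i * (ρ 0 + ρ 1 + ρ i.succ.succ) =
      (∑ i, tau i) * (ρ 0 + ρ 1) + ∑ i, tau i * ρ i.succ.succ := by
    rw [Finset.sum_mul, ← Finset.sum_add_distrib]
    exact Finset.sum_congr rfl fun x _ => by ring
  have hc : ∑ j, c j * (ω (Sum.inl j) + ω (Sum.inr (Sum.inl (u j))) + ω (Sum.inr (Sum.inr (v j)))) =
      ∑ j, c j * ω (Sum.inl j) +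
        ∑ x, (∑ j, (if u j = x then c j else 0)) * ω (Sum.inr (Sum.inl x)) +
        ∑ y, (∑ j, (if v j = y then c j else 0)) * ω (Sum.inr (Sum.inr y)) := by
    have e1 : ∑ x, (∑ j, (if u j = x then c j else 0)) * ω (Sum.inr (Sum.inl x)) =
        ∑ j, c j * ω (Sum.inr (Sum.inl (u j))) := by
      simp only [Finset.sum_mul]
      rw [Finset.sum_comm]
      refine Finset.sum_congr rfl fun j _ => ?_
      rw [Finset.sum_eq_single (u j)]
      · rw [if_pos rfl]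
      · intro b _ hb
        rw [if_neg (Ne.symm hb), zero_mul]
      · intro h'
        exact absurd (Finset.mem_univ _) h'
    have e2 : ∑ y, (∑ j, (if v j = y then c j else 0)) * ω (Sum.inr (Sum.inr y)) =
        ∑ j, c j * ω (Sum.inr (Sum.inr (v j))) := by
      simp only [Finset.sum_mul]
      rw [Finset.sum_comm]
      refine Finset.sum_congr rfl fun j _ => ?_
      rw [Finset.sum_eq_single (v j)]
      · rw [if_pos rfl]
      · intro b _ hb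
        rw [if_neg (Ne.symm hb), zero_mul]
      · intro h'
        exact absurd (Finset.mem_univ _) h'
    rw [e1, e2, ← Finset.sum_add_distrib, ← Finset.sum_add_distrib]
    exact Finset.sum_congr rfl fun x _ => by ring
  have hω : ∑ x : ι ⊕ (O₁ ⊕ O₂), a * ω x =
      (∑ j, (∑ x, A j x) * ω (Sum.inl j) + ∑ j, (∑ x, B j x) * ω (Sum.inl j) +
        ∑ j, c j * ω (Sum.inl j)) +
      (∑ x, (∑ j, A j x) * ω (Sum.inr (Sum.inl x)) +
        ∑ x, (∑ y, M x y) * ω (Sum.inr (Sum.inl x)) + ∑ x, g x * ω (Sum.inr (Sum.inl x)) +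
        ∑ x, (∑ j, (if u j = x then c j else 0)) * ω (Sum.inr (Sum.inl x))) +
      (∑ x, (∑ j, B j x) * ω (Sum.inr (Sum.inr x)) +
        ∑ y, (∑ x, M x y) * ω (Sum.inr (Sum.inr y)) +
        ∑ y, (∑ j, (if v j = y then c j else 0)) * ω (Sum.inr (Sum.inr y))) := by
    rw [Fintype.sum_sum_type, Fintype.sum_sum_type, ← add_assoc]
    congr 1
    · congr 1
      · rw [← Finset.sum_add_distrib, ← Finset.sum_add_distrib]
        refine Finset.sum_congr rfl fun j _ => ?_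
        rw [← D.rowB j, ← D.rowA j]
        ring
      · rw [← Finset.sum_add_distrib, ← Finset.sum_add_distrib, ← Finset.sum_add_distrib]
        refine Finset.sum_congr rfl fun x _ => ?_
        have h1 := D.col1 x
        rw [← h1]
        ring
    · rw [← Finset.sum_add_distrib, ← Finset.sum_add_distrib]
      refine Finset.sum_congr rfl fun y _ => ?_
      have h1 := D.col2 y
      rw [← h1]
      ring
  rw [hA, hB, hM, hg, ht, hc, hω]
  ring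

/-- the degrees of the lift -/
lemma PH_deg {a d : ℕ} {al c : ι → ℕ} {u : ι → O₁}
    {v : ι → O₂} {f₁ : ι → O₁} {f₂ : ι → O₂} {A : ι → O₁ → ℕ} {B : ι → O₂ → ℕ}
    {M : O₁ → O₂ → ℕ} {g : O₁ → ℕ} (D : Dsn a d al c u v f₁ f₂ A B M g)
    {tau : Fin k → ℕ} {F : MvPolynomial (Fin k × ι) ℂ} (hF : F ∈ KK k ι c tau)
    (w : Fin (k + 2) × (ι ⊕ (O₁ ⊕ O₂)) →₀ ℕ) (hw : coeff w (PH k u v A B M g F) ≠ 0) :
    (∑ x, w (0, x) = (∑ j, ∑ x, A j x + ∑ j, ∑ y, B j y + ∑ x, ∑ y, M x y + ∑ i, tau i) + d) ∧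
    (∑ x, w (1, x) = (∑ j, ∑ x, A j x + ∑ j, ∑ y, B j y + ∑ x, ∑ y, M x y + ∑ i, tau i)) ∧
    (∀ i : Fin k, ∑ x, w (i.succ.succ, x) = tau i) ∧ ∀ x, ∑ i, w (i, x) = a := by
  classical
  have key : ∀ (ρ : Fin (k + 2) → ℕ) (ω : ι ⊕ (O₁ ⊕ O₂) → ℕ),
      ∑ i, ρ i * ∑ x, w (i, x) + ∑ x, ω x * ∑ i, w (i, x) =
      (∑ j, ∑ x, A j x + ∑ j, ∑ y, B j y + ∑ x, ∑ y, M x y + ∑ i, tau i) * (ρ 0 + ρ 1) +
        d * ρ 0 + ∑ i, tau i * ρ i.succ.succ + ∑ x, a * ω x := by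
    intro ρ ω
    have h := wh_PH ρ ω D hF hw
    rw [weight_fintype] at h
    rw [← h]
    have h1 : ∑ p : Fin (k + 2) × (ι ⊕ (O₁ ⊕ O₂)), w p * ww ρ ω p =
        ∑ p : Fin (k + 2) × (ι ⊕ (O₁ ⊕ O₂)), w p * ρ p.1 +
        ∑ p : Fin (k + 2) × (ι ⊕ (O₁ ⊕ O₂)), w p * ω p.2 := by
      rw [← Finset.sum_add_distrib]
      exact Finset.sum_congr rfl fun p _ => by rw [ww]; ring
    rw [h1]
    congr 1
    · rw [Fintype.sum_prod_type]
      refine Finset.sum_congr rfl fun i _ => ?_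
      rw [Finset.mul_sum]
      exact Finset.sum_congr rfl fun x _ => mul_comm _ _
    · rw [Fintype.sum_prod_type_right]
      refine Finset.sum_congr rfl fun i _ => ?_
      rw [Finset.mul_sum]
      exact Finset.sum_congr rfl fun x _ => mul_comm _ _
  have hs : ∀ (i0 : Fin (k + 2)) (f : Fin (k + 2) → ℕ),
      ∑ i, (if i = i0 then 1 else 0) * f i = f i0 := by
    intro i0 f
    simp
  have h10 : (1 : Fin (k + 2)) ≠ 0 := by
    intro h
    have := congrArg Fin.val h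
    simp at this
  have hss1 : ∀ i : Fin k, i.succ.succ ≠ (1 : Fin (k + 2)) := by
    intro i h
    have := congrArg Fin.val h
    simp at this
  refine ⟨?_, ?_, ?_, ?_⟩
  · have h := key (fun i => if i = 0 then 1 else 0) (fun _ => 0)
    rw [hs 0 (fun i => ∑ x, w (i, x))] at h
    simpa [h10, Fin.succ_ne_zero] using h
  · have h := key (fun i => if i = 1 then 1 else 0) (fun _ => 0)
    rw [hs 1 (fun i => ∑ x, w (i, x))] at h
    simpa [h10.symm, hss1] using h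
  · intro i
    have h := key (fun i' => if i' = i.succ.succ then 1 else 0) (fun _ => 0)
    rw [hs i.succ.succ (fun i => ∑ x, w (i, x))] at h
    simpa [(Fin.succ_ne_zero i.succ).symm, (hss1 i).symm] using h
  · intro x
    have h := key (fun _ => 0) (fun y => if y = x then 1 else 0)
    simpa using h

/-- the lift is a highest weight polynomial -/
lemma PH_mem_HW {a d r : ℕ} {al c : ι → ℕ} {u : ι → O₁}
    {v : ι → O₂} {f₁ : ι → O₁} {f₂ : ι → O₂} {A : ι → O₁ → ℕ} {B : ι → O₂ → ℕ}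
    {M : O₁ → O₂ → ℕ} {g : O₁ → ℕ} (D : Dsn a d al c u v f₁ f₂ A B M g)
    {tau : Fin k → ℕ} (hr : 2 * r + d + ∑ i, tau i =
      a * (Fintype.card ι + Fintype.card O₁ + Fintype.card O₂))
    {F : MvPolynomial (Fin k × ι) ℂ} (hF : F ∈ KK k ι c tau) :
    PH k u v A B M g F ∈ HW (k + 2) (ι ⊕ (O₁ ⊕ O₂)) (Fin.cons (r + d) (Fin.cons r tau)) := by
  refine ⟨fun w hw => ?_, fun s i hsi => PH_rowOp hF.1 s i hsi⟩
  obtain ⟨h0, h1, h2, h3⟩ := PH_deg D hF w hw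
  have h4 : ∑ i, ∑ x, w (i, x) =
      a * (Fintype.card ι + Fintype.card O₁ + Fintype.card O₂) := by
    rw [Finset.sum_comm, Finset.sum_congr rfl fun x _ => h3 x, Finset.sum_const,
      Finset.card_univ, Fintype.card_sum, Fintype.card_sum, smul_eq_mul]
    ring
  rw [Fin.sum_univ_succ, Fin.sum_univ_succ, Finset.sum_congr rfl fun i _ => h2 i] at h4
  have e1 : (Fin.succ 0 : Fin (k + 2)) = 1 := rfl
  rw [e1, h0, h1, ← hr] at h4
  generalize ∑ j, ∑ x, A j x + ∑ j, ∑ y, B j y + ∑ x, ∑ y, M x y + ∑ i, tau i = N at h0 h1 h4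
  generalize ∑ i, tau i = t at h4
  have hN : N = r := by omega
  intro i
  refine Fin.cases ?_ (fun i => ?_) i
  · rw [Fin.cons_zero, h0, hN]
  · refine Fin.cases ?_ (fun i => ?_) i
    · rw [Fin.cons_succ, Fin.cons_zero, e1, h1, hN]
    · rw [Fin.cons_succ, Fin.cons_succ]
      exact h2 i

end lift

end Vale.Agent.P181.TB.H505
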