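import Vale.Agent.P181.TB.H505.B

set_option autoImplicit false

/-!
# P181, TB1: the lift, part C: the specialization
-/

open MvPolynomial

namespace Vale.Agent.P181.TB.H505

open Vale.Agent.P181.T4 (HW finiteDimensional_HW rowOp rowOp_apply rowOp_leibniz rowOp_C rowOp_var)
open Vale.Agent.P181.H280 (plethMult)
open Vale.Agent.P181.SZ (PK)
open Vale.Agent.P181.SZR2 (wh_aeval weight_fintype wh_X)
open Vale.Agent.P181.DGx.H248
open Vale.Agent.P181.DU.H248 (sb_equiv tr tr_apply coeff_sb_equiv split_equiv pr_inj)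
open Vale.Agent.P181.TL (KK)

section spec

variable {k : ℕ} {ι O₁ O₂ : Type}

/-- the points -/
noncomputable def pt (k : ℕ) : (ι ⊕ (O₁ ⊕ O₂)) → Fin (k + 2) → MvPolynomial (Fin (k + 1) × ι) ℂ
  | Sum.inl j, i => Fin.cases (motive := fun _ => MvPolynomial (Fin (k + 1) × ι) ℂ) 1
      (fun i' => X (i', j)) i
  | Sum.inr (Sum.inl _), i => if i = 0 then 1 else 0
  | Sum.inr (Sum.inr _), i => if i = 1 then 1 else 0

/-- the value of a bracket at two points -/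
noncomputable def bp (k : ℕ) (x y : ι ⊕ (O₁ ⊕ O₂)) : MvPolynomial (Fin (k + 1) × ι) ℂ :=
  pt k x 0 * pt k y 1 - pt k x 1 * pt k y 0

/-- the specialization after a permutation -/
noncomputable def ev (k : ℕ) (π : ι ⊕ (O₁ ⊕ O₂) → ι ⊕ (O₁ ⊕ O₂)) :
    MvPolynomial (Fin (k + 2) × (ι ⊕ (O₁ ⊕ O₂))) ℂ →ₐ[ℂ] MvPolynomial (Fin (k + 1) × ι) ℂ :=
  aeval fun q => pt k (π q.2) q.1

lemma ev_X (π : ι ⊕ (O₁ ⊕ O₂) → ι ⊕ (O₁ ⊕ O₂)) (q : Fin (k + 2) × (ι ⊕ (O₁ ⊕ O₂))) :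
    ev k π (X q) = pt k (π q.2) q.1 := by
  rw [ev, aeval_X]

lemma ev_br (π : ι ⊕ (O₁ ⊕ O₂) → ι ⊕ (O₁ ⊕ O₂)) (x y : ι ⊕ (O₁ ⊕ O₂)) :
    ev k π (br k x y) = bp k (π x) (π y) := by
  rw [br, map_sub, map_mul, map_mul, ev_X, ev_X, ev_X, ev_X, bp]

lemma ev_mn3 (π : ι ⊕ (O₁ ⊕ O₂) → ι ⊕ (O₁ ⊕ O₂)) (i : Fin k) (x y z : ι ⊕ (O₁ ⊕ O₂)) :
    ev k π (mn3 i x y z) = pt k (π x) i.succ.succ * bp k (π y) (π z) +
      pt k (π y) i.succ.succ * bp k (π z) (π x) + pt k (π z) i.succ.succ * bp k (π x) (π y) := by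
  rw [mn3, map_add, map_add, map_mul, map_mul, map_mul, ev_br, ev_br, ev_br, ev_X, ev_X, ev_X]

lemma pt_out (i : Fin k) (s : O₁ ⊕ O₂) :
    pt k (Sum.inr s : ι ⊕ (O₁ ⊕ O₂)) i.succ.succ = 0 := by
  have h1 : i.succ.succ ≠ (1 : Fin (k + 2)) := by
    intro h
    have := congrArg Fin.val h
    simp at this
  rcases s with x | y
  · rw [pt, if_neg (Fin.succ_ne_zero _)]
  · rw [pt, if_neg h1]

lemma pt_in (i : Fin (k + 1)) (j : ι) :
    pt k (Sum.inl j : ι ⊕ (O₁ ⊕ O₂)) i.succ = X (i, j) := rfl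

lemma pt_in0 (j : ι) : pt k (Sum.inl j : ι ⊕ (O₁ ⊕ O₂)) 0 = 1 := rfl

lemma pt_in1 (j : ι) : pt k (Sum.inl j : ι ⊕ (O₁ ⊕ O₂)) 1 = X (0, j) := rfl

lemma pt_L0 (x : O₁) : pt k (Sum.inr (Sum.inl x) : ι ⊕ (O₁ ⊕ O₂)) 0 = 1 := by
  rw [pt, if_pos rfl]

lemma one_ne_zero' : (1 : Fin (k + 2)) ≠ 0 := by
  intro h
  have := congrArg Fin.val h
  simp at this

lemma pt_L1 (x : O₁) : pt k (Sum.inr (Sum.inl x) : ι ⊕ (O₁ ⊕ O₂)) 1 = 0 := by
  rw [pt, if_neg one_ne_zero']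

lemma pt_R0 (x : O₂) : pt k (Sum.inr (Sum.inr x) : ι ⊕ (O₁ ⊕ O₂)) 0 = 0 := by
  rw [pt, if_neg one_ne_zero'.symm]

lemma pt_R1 (x : O₂) : pt k (Sum.inr (Sum.inr x) : ι ⊕ (O₁ ⊕ O₂)) 1 = 1 := by
  rw [pt, if_pos rfl]

lemma bp_same (s s' : O₁ ⊕ O₂) (h : s.isLeft = s'.isLeft) :
    bp k (Sum.inr s : ι ⊕ (O₁ ⊕ O₂)) (Sum.inr s') = 0 := by
  rcases s with x | x <;> rcases s' with y | y
  · rw [bp, pt_L0, pt_L0, pt_L1, pt_L1]; ring
  · simp at h
  · simp at h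
  · rw [bp, pt_R0, pt_R0, pt_R1, pt_R1]; ring

lemma bp_LR (x : O₁) (y : O₂) :
    bp k (Sum.inr (Sum.inl x) : ι ⊕ (O₁ ⊕ O₂)) (Sum.inr (Sum.inr y)) = 1 := by
  rw [bp, pt_L0, pt_R1, pt_L1, pt_R0]; ring

lemma bp_IL (j : ι) (x : O₁) :
    bp k (Sum.inl j : ι ⊕ (O₁ ⊕ O₂)) (Sum.inr (Sum.inl x)) = - X (0, j) := by
  rw [bp, pt_in0, pt_L1, pt_in1, pt_L0]; ring

lemma bp_IR (j : ι) (y : O₂) :
    bp k (Sum.inl j : ι ⊕ (O₁ ⊕ O₂)) (Sum.inr (Sum.inr y)) = 1 := by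
  rw [bp, pt_in0, pt_R1, pt_in1, pt_R0]; ring

/-- A substitution which kills a column of positive degree. -/
lemma aeval_col_zero {R : Type} [CommRing R] [Algebra ℂ R] (φ : Fin k × ι → R) (j : ι)
    (h : ∀ i, φ (i, j) = 0) (F : MvPolynomial (Fin k × ι) ℂ)
    (hF : ∀ v, coeff v F ≠ 0 → 1 ≤ ∑ i, v (i, j)) : aeval φ F = 0 := by
  rw [F.as_sum, map_sum]
  refine Finset.sum_eq_zero fun v hv => ?_
  have h1 := hF v (mem_support_iff.1 hv)
  obtain ⟨i, _, hi⟩ := Finset.exists_ne_zero_of_sum_ne_zero (by omega : ∑ i, v (i, j) ≠ 0)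
  rw [aeval_monomial, Finsupp.prod, Finset.prod_eq_zero (Finsupp.mem_support_iff.2 hi), mul_zero]
  rw [h i, zero_pow hi]

variable [Fintype ι] [Fintype O₁] [Fintype O₂]

lemma ev_mo (π : ι ⊕ (O₁ ⊕ O₂) → ι ⊕ (O₁ ⊕ O₂)) (A : ι → O₁ → ℕ) (B : ι → O₂ → ℕ)
    (M : O₁ → O₂ → ℕ) (g : O₁ → ℕ) : ev k π (mo k A B M g) =
    (∏ j, ∏ x, bp k (π (Sum.inl j)) (π (Sum.inr (Sum.inl x))) ^ A j x) *
    (∏ j, ∏ y, bp k (π (Sum.inl j)) (π (Sum.inr (Sum.inr y))) ^ B j y) *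
    (∏ x, ∏ y, bp k (π (Sum.inr (Sum.inl x))) (π (Sum.inr (Sum.inr y))) ^ M x y) *
    ∏ x, pt k (π (Sum.inr (Sum.inl x))) 0 ^ g x := by
  simp only [mo, map_mul, map_prod, map_pow, ev_br, ev_X]

/-- **which permutations survive** -/
lemma survive {a d : ℕ} {al c : ι → ℕ} {u : ι → O₁}
    {v : ι → O₂} {f₁ : ι → O₁} {f₂ : ι → O₂} {A : ι → O₁ → ℕ} {B : ι → O₂ → ℕ}
    {M : O₁ → O₂ → ℕ} {g : O₁ → ℕ} (D : Dsn a d al c u v f₁ f₂ A B M g)
    {tau : Fin k → ℕ} {F : MvPolynomial (Fin k × ι) ℂ} (hF : F ∈ KK k ι c tau)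
    (π : (ι ⊕ (O₁ ⊕ O₂)) ≃ (ι ⊕ (O₁ ⊕ O₂))) (hne : ev k π (PH k u v A B M g F) ≠ 0) :
    ∃ (τ : ι ≃ ι) (ρ₁ : O₁ ≃ O₁) (ρ₂ : O₂ ≃ O₂), ∀ x, π x = Sum.map τ (Sum.map ρ₁ ρ₂) x := by
  classical
  rw [PH_apply, map_mul] at hne
  have hmo := left_ne_zero_of_mul hne
  have hFF := right_ne_zero_of_mul hne
  rw [ev_mo] at hmo
  have hMM := right_ne_zero_of_mul (left_ne_zero_of_mul hmo)
  have hBB := right_ne_zero_of_mul (left_ne_zero_of_mul (left_ne_zero_of_mul hmo))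
  have hAA := left_ne_zero_of_mul (left_ne_zero_of_mul (left_ne_zero_of_mul hmo))
  have hA' : ∀ j x, A j x ≠ 0 → bp k (π (Sum.inl j)) (π (Sum.inr (Sum.inl x))) ≠ 0 := by
    intro j x h h0
    exact Finset.prod_ne_zero_iff.1 (Finset.prod_ne_zero_iff.1 hAA j (Finset.mem_univ _)) x
      (Finset.mem_univ _) (by rw [h0, zero_pow h])
  have hB' : ∀ j y, B j y ≠ 0 → bp k (π (Sum.inl j)) (π (Sum.inr (Sum.inr y))) ≠ 0 := by
    intro j x h h0
    exact Finset.prod_ne_zero_iff.1 (Finset.prod_ne_zero_iff.1 hBB j (Finset.mem_univ _)) x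
      (Finset.mem_univ _) (by rw [h0, zero_pow h])
  have hM' : ∀ x y, M x y ≠ 0 →
      bp k (π (Sum.inr (Sum.inl x))) (π (Sum.inr (Sum.inr y))) ≠ 0 := by
    intro j x h h0
    exact Finset.prod_ne_zero_iff.1 (Finset.prod_ne_zero_iff.1 hMM j (Finset.mem_univ _)) x
      (Finset.mem_univ _) (by rw [h0, zero_pow h])
  -- every cluster has a letter at an inner point
  have hcl : ∀ j, ∃ z : ι ⊕ (O₁ ⊕ O₂), (z = Sum.inl j ∨ z = Sum.inr (Sum.inl (u j)) ∨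
      z = Sum.inr (Sum.inr (v j))) ∧ ∃ j', π z = Sum.inl j' := by
    intro j
    by_contra hc
    push Not at hc
    apply hFF
    have h1 : ∀ z : ι ⊕ (O₁ ⊕ O₂), (z = Sum.inl j ∨ z = Sum.inr (Sum.inl (u j)) ∨
        z = Sum.inr (Sum.inr (v j))) → ∀ i : Fin k, pt k (π z) i.succ.succ = 0 := by
      intro z hz i
      have h2 := hc z hz
      rcases h3 : π z with j' | s
      · exact absurd h3 (h2 j')
      · exact pt_out i s
    have h2 : ev k π (aeval (yy u v) F) = aeval (fun q => ev k π (yy u v q)) F := by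
      have := DFunLike.congr_fun (MvPolynomial.comp_aeval (R := ℂ) (yy u v) (ev k π)) F
      rw [AlgHom.comp_apply] at this
      exact this
    rw [h2]
    refine aeval_col_zero _ j (fun i => ?_) F fun w hw => ?_
    · rw [yy, ev_mn3, h1 _ (Or.inl rfl), h1 _ (Or.inr (Or.inl rfl)), h1 _ (Or.inr (Or.inr rfl))]
      ring
    · rw [hF.2 w hw j]
      exact D.pos j
  choose z hz h hh using hcl
  have hzinj : ∀ j j', z j = z j' → j = j' := by
    intro j j' he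
    rcases hz j with h1 | h1 | h1 <;> rcases hz j' with h2 | h2 | h2 <;> rw [h1, h2] at he
    · exact Sum.inl_injective he
    · simp at he
    · simp at he
    · simp at he
    · exact D.inju (Sum.inl_injective (Sum.inr_injective he))
    · simp at he
    · simp at he
    · simp at he
    · exact D.injv (Sum.inr_injective (Sum.inr_injective he))
  have hinj : Function.Injective h := by
    intro j j' he
    apply hzinj
    apply π.injective
    rw [hh, hh, he]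
  have hsur : Function.Surjective h := Finite.surjective_of_injective hinj
  have hall : ∀ x j', π x = Sum.inl j' → ∃ j, x = z j := by
    intro x j' hx
    obtain ⟨j, rfl⟩ := hsur j'
    exact ⟨j, π.injective (hx.trans (hh j).symm)⟩
  have hf1 : ∀ j, ∃ s, π (Sum.inr (Sum.inl (f₁ j))) = Sum.inr s := by
    intro j
    rcases h1 : π (Sum.inr (Sum.inl (f₁ j))) with j' | s
    · exfalso
      obtain ⟨j'', h2⟩ := hall _ _ h1
      rcases hz j'' with h3 | h3 | h3 <;> rw [h3] at h2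
      · simp at h2
      · exact D.fr4 j j'' (Sum.inl_injective (Sum.inr_injective h2)).symm
      · simp at h2
    · exact ⟨s, rfl⟩
  have hf2 : ∀ j, ∃ s, π (Sum.inr (Sum.inr (f₂ j))) = Sum.inr s := by
    intro j
    rcases h1 : π (Sum.inr (Sum.inr (f₂ j))) with j' | s
    · exfalso
      obtain ⟨j'', h2⟩ := hall _ _ h1
      rcases hz j'' with h3 | h3 | h3 <;> rw [h3] at h2
      · simp at h2
      · simp at h2
      · exact D.fr5 j j'' (Sum.inr_injective (Sum.inr_injective h2)).symm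
    · exact ⟨s, rfl⟩
  have hin : ∀ j, ∃ j', π (Sum.inl j) = Sum.inl j' := by
    intro j
    rcases h1 : π (Sum.inl j) with j' | s
    · exact ⟨j', rfl⟩
    · exfalso
      obtain ⟨s1, h2⟩ := hf1 j
      obtain ⟨s2, h3⟩ := hf2 j
      have e1 := hA' j (f₁ j) (by have := D.fr1 j; omega)
      have e2 := hB' j (f₂ j) (by have := D.fr2 j; omega)
      have e3 := hM' (f₁ j) (f₂ j) (by have := D.fr3 j; omega)
      rw [h1, h2] at e1
      rw [h1, h3] at e2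
      rw [h2, h3] at e3
      have g1 : s.isLeft ≠ s1.isLeft := fun h => e1 (bp_same _ _ h)
      have g2 : s.isLeft ≠ s2.isLeft := fun h => e2 (bp_same _ _ h)
      have g3 : s1.isLeft ≠ s2.isLeft := fun h => e3 (bp_same _ _ h)
      revert g1 g2 g3
      generalize s.isLeft = b0
      generalize s1.isLeft = b1
      generalize s2.isLeft = b2
      decide +revert
  have hout : ∀ x, ∃ x', π (Sum.inr x) = Sum.inr x' := by
    intro x
    rcases h1 : π (Sum.inr x) with j' | s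
    · exfalso
      choose t ht using hin
      have htinj : Function.Injective t := by
        intro j j' he
        have h2 : π (Sum.inl j) = π (Sum.inl j') := by rw [ht, ht, he]
        exact Sum.inl_injective (π.injective h2)
      obtain ⟨j, rfl⟩ := Finite.surjective_of_injective htinj j'
      have := π.injective (h1.trans (ht j).symm)
      simp at this
    · exact ⟨s, rfl⟩
  obtain ⟨τ, ρ, hτρ⟩ := split_equiv π hin hout
  have hρ : ∀ x, π (Sum.inr x) = Sum.inr (ρ x) := fun x => hτρ (Sum.inr x)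
  obtain ⟨u1, u2⟩ := D.up (fun x => (ρ x).isLeft) (by
    rw [← Finset.card_univ (α := O₁), ← Finset.card_map (⟨Sum.inl, Sum.inl_injective⟩ : O₁ ↪ O₁ ⊕ O₂)]
    refine Finset.card_bij (fun x _ => ρ x) (fun x hx => ?_) (fun x _ y _ he => ρ.injective he)
      (fun y hy => ?_)
    · rw [Finset.mem_filter] at hx
      rw [Finset.mem_map]
      obtain ⟨x', hx'⟩ := Sum.isLeft_iff.1 hx.2
      exact ⟨x', Finset.mem_univ _, hx'.symm⟩
    · rw [Finset.mem_map] at hy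
      obtain ⟨x', _, hx'⟩ := hy
      refine ⟨ρ.symm y, Finset.mem_filter.2 ⟨Finset.mem_univ _, ?_⟩, by simp⟩
      rw [Equiv.apply_symm_apply, ← hx']
      rfl) (by
    intro x y hxy he
    apply hM' x y hxy
    rw [hρ, hρ]
    exact bp_same _ _ he)
  obtain ⟨ρ₁, ρ₂, hρ12⟩ := split_equiv ρ (fun x => Sum.isLeft_iff.1 (u1 x)) (fun y => by
    have := u2 y
    rcases h1 : ρ (Sum.inr y) with x | y'
    · rw [h1] at this
      simp at this
    · exact ⟨y', rfl⟩)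
  refine ⟨τ, ρ₁, ρ₂, fun x => ?_⟩
  rw [hτρ]
  rcases x with j | x
  · rfl
  · rw [Sum.map_inr, Sum.map_inr, hρ12]

/-- **the value of the surviving terms** -/
lemma ev_PH {a d : ℕ} {al c : ι → ℕ} {u : ι → O₁}
    {v : ι → O₂} {f₁ : ι → O₁} {f₂ : ι → O₂} {A : ι → O₁ → ℕ} {B : ι → O₂ → ℕ}
    {M : O₁ → O₂ → ℕ} {g : O₁ → ℕ} (D : Dsn a d al c u v f₁ f₂ A B M g)
    (F : MvPolynomial (Fin k × ι) ℂ)
    (π : ι ⊕ (O₁ ⊕ O₂) → ι ⊕ (O₁ ⊕ O₂)) (τ : ι ≃ ι) (ρ₁ : O₁ ≃ O₁) (ρ₂ : O₂ ≃ O₂)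
    (h : ∀ x, π x = Sum.map τ (Sum.map ρ₁ ρ₂) x) :
    ev k π (PH k u v A B M g F) = (∏ j, (- X (0, τ j) : MvPolynomial (Fin (k + 1) × ι) ℂ) ^ al j) *
      rename (fun q : Fin k × ι => (q.1.succ, τ q.2)) F := by
  have h1 : ∀ j, π (Sum.inl j) = Sum.inl (τ j) := fun j => h _
  have h2 : ∀ x, π (Sum.inr (Sum.inl x)) = Sum.inr (Sum.inl (ρ₁ x)) := fun j => h _
  have h3 : ∀ y, π (Sum.inr (Sum.inr y)) = Sum.inr (Sum.inr (ρ₂ y)) := fun j => h _
  rw [PH_apply, map_mul, ev_mo]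
  have e1 : ∏ j, ∏ x, bp k (π (Sum.inl j)) (π (Sum.inr (Sum.inl x))) ^ A j x =
      ∏ j, (- X (0, τ j) : MvPolynomial (Fin (k + 1) × ι) ℂ) ^ al j := by
    refine Finset.prod_congr rfl fun j _ => ?_
    rw [← D.rowA j, ← Finset.prod_pow_eq_pow_sum]
    refine Finset.prod_congr rfl fun x _ => ?_
    rw [h1, h2, bp_IL]
  have e2 : ∏ j, ∏ y, bp k (π (Sum.inl j)) (π (Sum.inr (Sum.inr y))) ^ B j y = 1 := by
    refine Finset.prod_eq_one fun j _ => Finset.prod_eq_one fun y _ => ?_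
    rw [h1, h3, bp_IR, one_pow]
  have e3 : ∏ x, ∏ y, bp k (π (Sum.inr (Sum.inl x))) (π (Sum.inr (Sum.inr y))) ^ M x y = 1 := by
    refine Finset.prod_eq_one fun j _ => Finset.prod_eq_one fun y _ => ?_
    rw [h2, h3, bp_LR, one_pow]
  have e4 : ∏ x, pt k (π (Sum.inr (Sum.inl x))) 0 ^ g x = 1 := by
    refine Finset.prod_eq_one fun x _ => ?_
    rw [h2, pt_L0, one_pow]
  rw [e1, e2, e3, e4, mul_one, mul_one, mul_one]
  congr 1
  have h4 : (ev k π).comp (aeval (yy u v)) =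
      rename (R := ℂ) (fun q : Fin k × ι => (q.1.succ, τ q.2)) := by
    apply MvPolynomial.algHom_ext
    intro q
    rw [AlgHom.comp_apply, aeval_X, yy, ev_mn3, h1, h2, h3, pt_out, pt_out, bp_LR, rename_X,
      pt_in]
    ring
  exact DFunLike.congr_fun h4 F

end spec

end Vale.Agent.P181.TB.H505
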