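import Vale.Agent.P181.TB.H505.C

set_option autoImplicit false

/-!
# P181, TB1: the lift
-/

open MvPolynomial

namespace Vale.Agent.P181.TB.H505

open Vale.Agent.P181.T4 (HW finiteDimensional_HW rowOp rowOp_apply rowOp_leibniz rowOp_C rowOp_var mem_ColS weight_colW)
open Vale.Agent.P181.H280 (plethMult)
open Vale.Agent.P181.SZ (PK SymHW finiteDimensional_SymHW plethMult_eq_SymHW)
open Vale.Agent.P181.SZR2 (wh_aeval weight_fintype wh_X)
open Vale.Agent.P181.DGx.H248
open Vale.Agent.P181.DU.H248 (sb_equiv tr tr_apply coeff_sb_equiv split_equiv pr_inj)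
open Vale.Agent.P181.TL (KK)
open Vale.Agent.P181.TL.H248 (St mem_St sym_mem_PK)

/-- Any set of letters. -/
lemma PK_le {σ : Type} [Fintype σ] (a m : ℕ) (lam : Fin m → ℕ) :
    Module.finrank ℂ (PK m σ (fun _ => a) lam) ≤ plethMult (Fintype.card σ) a m lam := by
  classical
  rw [plethMult_eq_SymHW]
  have hfin := finiteDimensional_SymHW (Fintype.card σ) a m lam
  let e : Fin (Fintype.card σ) ≃ σ := (Fintype.equivFin σ).symm
  let T : MvPolynomial (Fin m × σ) ℂ →ₗ[ℂ] MvPolynomial (Fin m × Fin (Fintype.card σ)) ℂ :=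
    (sb m e (fun _ => 1)).toLinearMap
  have hT : ∀ f, T f = rename (fun p : Fin m × σ => (p.1, e.symm p.2)) f := fun f => sb_equiv e f
  have hmem : ∀ f ∈ PK m σ (fun _ => a) lam, T f ∈ SymHW (Fintype.card σ) a m lam := by
    intro f hf
    refine ⟨⟨?_, ?_⟩, fun e' => ?_⟩
    · exact sb_mem_HW _ _ hf.1
    · rw [SetLike.mem_coe, mem_ColS]
      intro j v hv
      rw [weight_colW]
      have h1 : coeff (tr e v) f ≠ 0 := by
        rw [← coeff_sb_equiv]
        exact hv
      have h2 : ∑ i, (tr e v) (i, e j) = a := hf.2.1 _ h1 (e j)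
      rw [← h2]
      refine Finset.sum_congr rfl fun i _ => ?_
      rw [tr_apply, Equiv.symm_apply_apply]
    · rw [hT, rename_rename]
      have h2 := hf.2.2 ((e.symm.trans e').trans e) (fun _ => rfl)
      conv_rhs => rw [← h2, rename_rename]
      congr 1
      congr 1
      funext p
      simp
  have hinj : Function.Injective (T.restrict (p := PK m σ (fun _ => a) lam)
      (q := SymHW (Fintype.card σ) a m lam) hmem) := by
    intro f g hfg
    apply Subtype.ext
    have h1 : T f = T g := congrArg Subtype.val hfg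
    rw [hT, hT] at h1
    exact rename_injective _ (pr_inj e.symm) h1
  exact LinearMap.finrank_le_finrank_of_injective hinj

/-- the monomial of the labels and the tail monomial -/
noncomputable def WW {k : ℕ} {ι : Type} [Fintype ι] (al : ι → ℕ) (w : Fin k × ι →₀ ℕ) :
    Fin (k + 1) × ι →₀ ℕ :=
  ∑ j, Finsupp.single (0, j) (al j) + w.mapDomain (fun q => (q.1.succ, q.2))

lemma sc_inj {k : ℕ} {ι : Type} (τ : ι ≃ ι) :
    Function.Injective (fun q : Fin k × ι => ((q.1.succ, τ q.2) : Fin (k + 1) × ι)) := by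
  intro p q h
  exact Prod.ext (Fin.succ_injective _ (congrArg Prod.fst h)) (τ.injective (congrArg Prod.snd h))

lemma prod_neg {k : ℕ} {ι : Type} [Fintype ι] (al : ι → ℕ) (τ : ι ≃ ι) :
    (∏ j, (- X (0, τ j) : MvPolynomial (Fin (k + 1) × ι) ℂ) ^ al j) =
      monomial (∑ j, Finsupp.single ((0 : Fin (k + 1)), τ j) (al j)) ((-1 : ℂ) ^ (∑ j, al j)) := by
  classical
  have h1 : ∀ (t : Finset ι), (∏ j ∈ t, (- X (0, τ j) : MvPolynomial (Fin (k + 1) × ι) ℂ) ^ al j) =
      monomial (∑ j ∈ t, Finsupp.single ((0 : Fin (k + 1)), τ j) (al j))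
        ((-1 : ℂ) ^ (∑ j ∈ t, al j)) := by
    intro t
    induction t using Finset.induction_on with
    | empty => simp
    | insert c t hc ih =>
      rw [Finset.prod_insert hc, ih, Finset.sum_insert hc, Finset.sum_insert hc, pow_add,
        ← monomial_mul]
      congr 1
      rw [neg_pow, X_pow_eq_monomial]
      have : ((-1 : MvPolynomial (Fin (k + 1) × ι) ℂ)) ^ al c = C ((-1 : ℂ) ^ al c) := by
        rw [map_pow, map_neg, map_one]
      rw [this, C_mul_monomial, mul_one]
  exact h1 Finset.univ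

lemma sum_single_apply {k : ℕ} {ι : Type} [Fintype ι] (al : ι → ℕ) (τ : ι ≃ ι)
    (i : Fin (k + 1)) (j : ι) :
    (∑ j, Finsupp.single ((0 : Fin (k + 1)), τ j) (al j)) (i, τ j) =
      if i = 0 then al j else 0 := by
  classical
  rw [Finsupp.finsetSum_apply, Finset.sum_eq_single j]
  · by_cases h : i = 0
    · subst h
      rw [if_pos rfl, Finsupp.single_eq_same]
    · rw [if_neg h, Finsupp.single_apply, if_neg]
      intro h'
      exact h (congrArg Prod.fst h').symm
  · intro j' _ hj'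
    rw [Finsupp.single_apply, if_neg]
    intro h'
    exact hj' (τ.injective (congrArg Prod.snd h'))
  · intro h'
    exact absurd (Finset.mem_univ _) h'

/-- coefficients of a surviving term -/
lemma coeff_term {k : ℕ} {ι : Type} [Fintype ι] (al : ι → ℕ) (τ : ι ≃ ι)
    (G : MvPolynomial (Fin k × ι) ℂ) (w : Fin k × ι →₀ ℕ)
    (h : coeff (WW al w) ((∏ j, (- X (0, τ j) : MvPolynomial (Fin (k + 1) × ι) ℂ) ^ al j) *
      rename (fun q : Fin k × ι => (q.1.succ, τ q.2)) G) ≠ 0) :
    (∀ j, al (τ j) = al j) ∧ ∃ w' : Fin k × ι →₀ ℕ, coeff w' G ≠ 0 ∧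
      ∀ i j, w' (i, j) = w (i, τ j) := by
  classical
  rw [prod_neg, coeff_mul] at h
  obtain ⟨⟨p, q⟩, hpq, h1⟩ := Finset.exists_ne_zero_of_sum_ne_zero h
  have hpq := Finset.HasAntidiagonal.mem_antidiagonal.1 hpq
  have hp := left_ne_zero_of_mul h1
  have hq := right_ne_zero_of_mul h1
  simp only at hp hq hpq
  rw [coeff_monomial] at hp
  have hp' : ∑ j, Finsupp.single ((0 : Fin (k + 1)), τ j) (al j) = p := by
    by_contra h2
    exact hp (if_neg h2)
  obtain ⟨w', hw', hw'2⟩ := coeff_rename_ne_zero _ _ _ hq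
  have hval : ∀ (i : Fin (k + 1)) (j : ι), p (i, τ j) + q (i, τ j) = WW al w (i, τ j) := by
    intro i j
    rw [← hpq]
    rfl
  have hq0 : ∀ j, q (0, τ j) = 0 := by
    intro j
    rw [← hw', Finsupp.mapDomain_of_notMem_range]
    rintro ⟨x, hx⟩
    exact Fin.succ_ne_zero _ (congrArg Prod.fst hx)
  have hqs : ∀ (i : Fin k) (j : ι), q (i.succ, τ j) = w' (i, j) := by
    intro i j
    rw [← hw']
    exact Finsupp.mapDomain_apply (sc_inj τ) w' (i, j)
  have hW0 : ∀ j, WW al w (0, j) = al j := by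
    intro j
    rw [WW, Finsupp.add_apply, Finsupp.mapDomain_of_notMem_range, add_zero]
    · have := sum_single_apply (k := k) al (Equiv.refl ι) 0 j
      rw [if_pos rfl] at this
      exact this
    · rintro ⟨x, hx⟩
      exact Fin.succ_ne_zero _ (congrArg Prod.fst hx)
  have hWs : ∀ (i : Fin k) (j : ι), WW al w (i.succ, j) = w (i, j) := by
    intro i j
    rw [WW, Finsupp.add_apply]
    have h2 := sum_single_apply (k := k) al (Equiv.refl ι) i.succ j
    rw [if_neg (Fin.succ_ne_zero i)] at h2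
    have h3 : (∑ j, Finsupp.single ((0 : Fin (k + 1)), j) (al j)) (i.succ, j) = 0 := h2
    rw [h3, zero_add]
    exact Finsupp.mapDomain_apply (sc_inj (Equiv.refl ι)) w (i, j)
  refine ⟨fun j => ?_, w', hw'2, fun i j => ?_⟩
  · have h2 := hval 0 j
    rw [hq0, hW0, ← hp', sum_single_apply, if_pos rfl] at h2
    omega
  · have h2 := hval i.succ j
    rw [hqs, hWs, ← hp', sum_single_apply, if_neg (Fin.succ_ne_zero i)] at h2
    omega

/-- the coefficient of the identity term -/
lemma coeff_id {k : ℕ} {ι : Type} [Fintype ι] (al : ι → ℕ)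
    (G : MvPolynomial (Fin k × ι) ℂ) (w : Fin k × ι →₀ ℕ) :
    coeff (WW al w) ((∏ j, (- X (0, j) : MvPolynomial (Fin (k + 1) × ι) ℂ) ^ al j) *
      rename (fun q : Fin k × ι => (q.1.succ, q.2)) G) = (-1 : ℂ) ^ (∑ j, al j) * coeff w G := by
  have h1 := prod_neg (k := k) al (Equiv.refl ι)
  simp only [Equiv.refl_apply] at h1
  rw [h1, WW, coeff_monomial_mul]
  congr 1
  exact coeff_rename_mapDomain _ (sc_inj (Equiv.refl ι)) G w

instance finiteDimensional_PK {m : ℕ} {σ : Type} [Fintype σ] (d : σ → ℕ) (mu : Fin m → ℕ) :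
    FiniteDimensional ℂ (PK m σ d mu) :=
  Submodule.finiteDimensional_of_le (S₂ := HW m σ mu) (fun _ h => h.1)

lemma ev_sb {k : ℕ} {ι O₁ O₂ : Type} [Fintype ι] [Fintype O₁] [Fintype O₂]
    [DecidableEq ι] [DecidableEq O₁] [DecidableEq O₂]
    (e : Equiv.Perm (ι ⊕ (O₁ ⊕ O₂))) (f : MvPolynomial (Fin (k + 2) × (ι ⊕ (O₁ ⊕ O₂))) ℂ) :
    ev k id (sb (k + 2) e (fun _ => 1) f) = ev k e.symm f := by
  rw [sb_equiv]
  have h : (ev k id).comp (rename (R := ℂ)
      (fun p : Fin (k + 2) × (ι ⊕ (O₁ ⊕ O₂)) => (p.1, e.symm p.2))) = ev k e.symm := by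
    apply MvPolynomial.algHom_ext
    intro q
    rw [AlgHom.comp_apply, rename_X, ev_X, ev_X]
    rfl
  exact DFunLike.congr_fun h f

open scoped Classical in
/-- **(TB1)** the lift. -/
theorem liftTB : LiftTB := by
  intro k a d r ι O₁ O₂ _ _ _ al u v f₁ f₂ tau KS hD hsum hsep htot
  have hD' : ∀ c : {c // c ∈ KS}, ∃ A B M g, Dsn a d al c.1 u v f₁ f₂ A B M g :=
    fun c => hD c.1 c.2
  choose A B M g hDs using hD'
  let σ := ι ⊕ (O₁ ⊕ O₂)
  let D : σ → ℕ := fun _ => a
  let mu : Fin (k + 2) → ℕ := Fin.cons (r + d) (Fin.cons r tau)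
  let W := ∀ c : {c // c ∈ KS}, KK k ι c.1 tau
  have hmem : ∀ (c : {c // c ∈ KS}), ∀ F ∈ KK k ι c.1 tau,
      (∑ e ∈ St D, (sb (k + 2) e (fun _ => 1)).toLinearMap ∘ₗ
        PH k u v (A c) (B c) (M c) (g c)) F ∈ PK (k + 2) σ D mu := by
    intro c F hF
    rw [LinearMap.sum_apply]
    exact sym_mem_PK D mu (PH_mem_HW (hDs c) htot hF)
      (fun v hv x => (PH_deg (hDs c) hF v hv).2.2.2 x)
  let Λ : W →ₗ[ℂ] PK (k + 2) σ D mu := ∑ c : {c // c ∈ KS},
    ((∑ e ∈ St D, (sb (k + 2) e (fun _ => 1)).toLinearMap ∘ₗ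
      PH k u v (A c) (B c) (M c) (g c)).restrict (p := KK k ι c.1 tau)
      (q := PK (k + 2) σ D mu) (hmem c)) ∘ₗ LinearMap.proj c
  have hΛ : ∀ x : W, ((Λ x : PK (k + 2) σ D mu) :
      MvPolynomial (Fin (k + 2) × σ) ℂ) = ∑ c : {c // c ∈ KS},
        ∑ e ∈ St D, sb (k + 2) e (fun _ => 1)
          (PH k u v (A c) (B c) (M c) (g c) (x c : MvPolynomial _ ℂ)) := by
    intro x
    rw [LinearMap.sum_apply, Submodule.coe_sum]
    refine Finset.sum_congr rfl fun c _ => ?_
    have h7 : ((∑ e ∈ St D, (sb (k + 2) e (fun _ => 1)).toLinearMap ∘ₗ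
      PH k u v (A c) (B c) (M c) (g c)) (x c : MvPolynomial _ ℂ)) = ∑ e ∈ St D,
        sb (k + 2) e (fun _ => 1) (PH k u v (A c) (B c) (M c) (g c)
          (x c : MvPolynomial _ ℂ)) := by
      rw [LinearMap.sum_apply]
      rfl
    rw [← h7]
    rfl
  have hinj : Function.Injective Λ := by
    rw [← LinearMap.ker_eq_bot, LinearMap.ker_eq_bot']
    intro x hx
    have hx' := hΛ x
    rw [hx, Submodule.coe_zero] at hx'
    funext c0
    apply Subtype.ext
    ext w
    rw [Pi.zero_apply, Submodule.coe_zero, coeff_zero]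
    by_contra hw
    have hkey : ∀ (c : {c // c ∈ KS}) (e : Equiv.Perm σ),
        coeff (WW al w) (ev k e.symm (PH k u v (A c) (B c) (M c) (g c)
          (x c : MvPolynomial _ ℂ))) ≠ 0 →
        c = c0 ∧ coeff (WW al w) (ev k e.symm (PH k u v (A c) (B c) (M c) (g c)
          (x c : MvPolynomial _ ℂ))) =
          (-1 : ℂ) ^ (∑ j, al j) * coeff w (x c0 : MvPolynomial (Fin k × ι) ℂ) := by
      intro c e hne
      have hne0 : ev k e.symm (PH k u v (A c) (B c) (M c) (g c)
          (x c : MvPolynomial _ ℂ)) ≠ 0 := by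
        intro h
        rw [h, coeff_zero] at hne
        exact hne rfl
      obtain ⟨τ, ρ₁, ρ₂, h7⟩ := survive (hDs c) (x c).2 e.symm hne0
      rw [ev_PH (hDs c) _ e.symm τ ρ₁ ρ₂ h7] at hne ⊢
      obtain ⟨h8, w', h9, h10⟩ := coeff_term al τ _ w hne
      have h11 := (x c).2.2 _ h9
      have h12 := (x c0).2.2 w hw
      have h13 : ∀ j, c0.1 (τ j) = c.1 j := by
        intro j
        rw [← h11 j, ← h12 (τ j)]
        refine Finset.sum_congr rfl fun i _ => ?_
        rw [h10]
      have h14 : ∀ j, τ j = j := by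
        intro j
        by_contra h15
        exact hsep c.1 c.2 c0.1 c0.2 j (τ j) (h8 j).symm (Ne.symm h15) (h13 j).symm
      have h15 : c = c0 := by
        apply Subtype.ext
        funext j
        rw [← h13 j, h14 j]
      refine ⟨h15, ?_⟩
      subst h15
      simp only [h14]
      exact coeff_id al _ w
    have h7 := congrArg (fun P => coeff (WW al w) (ev k id P)) hx'
    beta_reduce at h7
    rw [map_zero, coeff_zero, map_sum, coeff_sum, Finset.sum_eq_single c0] at h7
    · rw [map_sum, coeff_sum] at h7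
      have h8 : ∀ e ∈ St D, coeff (WW al w) (ev k id (sb (k + 2) e (fun _ => 1)
          (PH k u v (A c0) (B c0) (M c0) (g c0) (x c0 : MvPolynomial _ ℂ)))) =
          if coeff (WW al w) (ev k id (sb (k + 2) e (fun _ => 1)
          (PH k u v (A c0) (B c0) (M c0) (g c0) (x c0 : MvPolynomial _ ℂ)))) = 0 then 0 else
              (-1 : ℂ) ^ (∑ j, al j) * coeff w (x c0 : MvPolynomial (Fin k × ι) ℂ) := by
        intro e _
        split_ifs with h
        · exact h
        · rw [ev_sb] at h ⊢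
          exact (hkey c0 e h).2
      rw [Finset.sum_congr rfl h8, Finset.sum_ite, Finset.sum_const_zero, zero_add,
        Finset.sum_const, nsmul_eq_mul] at h7
      refine (mul_ne_zero ?_ (mul_ne_zero (pow_ne_zero _ (by norm_num)) hw)) h7.symm
      rw [Nat.cast_ne_zero, ← Nat.pos_iff_ne_zero, Finset.card_pos]
      refine ⟨1, Finset.mem_filter.2 ⟨mem_St.2 fun x => rfl, ?_⟩⟩
      rw [ev_sb, ev_PH (hDs c0) _ _ (Equiv.refl ι) (Equiv.refl O₁) (Equiv.refl O₂) (fun x => by
        rcases x with j | x | y <;> rfl)]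
      have h16 := coeff_id al (x c0 : MvPolynomial (Fin k × ι) ℂ) w
      simp only [Equiv.refl_apply]
      rw [h16]
      exact mul_ne_zero (pow_ne_zero _ (by norm_num)) hw
    · intro c _ hc
      rw [map_sum, coeff_sum]
      refine Finset.sum_eq_zero fun e he => ?_
      by_contra h
      rw [ev_sb] at h
      exact hc (hkey c e h).1
    · intro h'
      exact absurd (Finset.mem_univ _) h'
  have hfr : Module.finrank ℂ W = ∑ c : {c // c ∈ KS}, Module.finrank ℂ (KK k ι c.1 tau) := by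
    rw [Module.finrank_pi_fintype]
  have h8 := LinearMap.finrank_le_finrank_of_injective hinj
  rw [hfr] at h8
  have h9 := PK_le (σ := σ) a (k + 2) mu
  have hcard : Fintype.card σ = Fintype.card ι + Fintype.card O₁ + Fintype.card O₂ := by
    rw [Fintype.card_sum, Fintype.card_sum, Nat.add_assoc]
  rw [hcard] at h9
  refine le_trans (le_of_eq ?_) (le_trans h8 h9)
  exact (Finset.sum_coe_sort KS (fun c => Module.finrank ℂ (KK k ι c tau))).symm

end Vale.Agent.P181.TB.H505
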